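import Vale.Agent.P235.H206.TDDefs
import Vale.Agent.P235.H206.Defs

/-!
# Tree decompositions of bounded depth are built in rounds

Round `0`: tree decompositions in which every edge is free. If on every root path at most `j + 1`
edges are not free, let `X` be the union of the bags of the nodes which can be reached from the
root by free edges. The torso of `X` is allowed in round `0`, the components of `G - X` in
round `j`.
-/

set_option autoImplicit false

namespace Vale.Agent.P235.H515

open SimpleGraph Vale.Agent.P235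

variable {V W ι : Type}

/-! ### Free edges -/

theorem freeEdge_symm {B : ι → Finset V} {a b : ι} (h : FreeEdge B a b) : FreeEdge B b a := by
  rcases h with h | h
  · refine Or.inl ?_
    have : {v | v ∈ B b ∧ v ∈ B a} = {v | v ∈ B a ∧ v ∈ B b} := by
      ext v
      exact and_comm
    rw [this]
    exact h
  · exact Or.inr h.symm

theorem freeEdge_mono {B : ι → Finset V} {B' : ι → Finset W} (f : W → V)
    (hf : Function.Injective f) (h : ∀ t w, w ∈ B' t → f w ∈ B t) {a b : ι}
    (hab : FreeEdge B a b) : FreeEdge B' a b := by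
  have hcard : ∀ t, (B' t).card ≤ (B t).card := fun t =>
    Finset.card_le_card_of_injOn f (fun w hw => h t w hw) hf.injOn
  rcases hab with h2 | h2
  · refine Or.inl (le_trans ?_ h2)
    refine Set.ncard_le_ncard_of_injOn f ?_ hf.injOn ?_
    · intro w hw
      exact ⟨h a w hw.1, h b w hw.2⟩
    · exact (B a).finite_toSet.subset fun v hv => hv.1
  · exact Or.inr ⟨(hcard a).trans h2.1, (hcard b).trans h2.2⟩

theorem freeEdge_of_empty {B : ι → Finset V} {a b : ι} (h : B a = ∅ ∨ B b = ∅) :
    FreeEdge B a b := by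
  refine Or.inl ?_
  have : {v | v ∈ B a ∧ v ∈ B b} = (∅ : Set V) := by
    ext v
    rcases h with h | h <;> simp [h]
  rw [this]
  simp

/-! ### The region reached by free edges -/

/-- the nodes which can be reached from `r` by free edges -/
def Reg (T : SimpleGraph ι) (B : ι → Finset V) (r : ι) : Set ι :=
  {t | ∃ p : T.Walk r t, ∀ a b, s(a, b) ∈ p.edges → FreeEdge B a b}

theorem root_mem (T : SimpleGraph ι) (B : ι → Finset V) (r : ι) : r ∈ Reg T B r :=
  ⟨.nil, fun a b h => by simp at h⟩

theorem reg_step {T : SimpleGraph ι} {B : ι → Finset V} {r a b : ι} (ha : a ∈ Reg T B r)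
    (hab : T.Adj a b) (h : FreeEdge B a b) : b ∈ Reg T B r := by
  obtain ⟨p, hp⟩ := ha
  refine ⟨p.concat hab, fun x y hxy => ?_⟩
  rw [Walk.edges_concat, List.concat_eq_append, List.mem_append, List.mem_singleton] at hxy
  rcases hxy with hxy | hxy
  · exact hp x y hxy
  · rw [Sym2.eq_iff] at hxy
    rcases hxy with ⟨rfl, rfl⟩ | ⟨rfl, rfl⟩
    · exact h
    · exact freeEdge_symm h

theorem path_unique' {T : SimpleGraph ι} (hT : T.IsTree) {a b : ι} {p q : T.Walk a b}
    (hp : p.IsPath) (hq : q.IsPath) : p = q :=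
  (hT.existsUnique_path a b).unique hp hq

/-- the edges of the path from the root to a node of the region are free -/
theorem reg_path {T : SimpleGraph ι} (hT : T.IsTree) {B : ι → Finset V} {r t : ι}
    (ht : t ∈ Reg T B r) (p : T.Walk r t) (hp : p.IsPath) :
    ∀ a b, s(a, b) ∈ p.edges → FreeEdge B a b := by
  classical
  obtain ⟨q, hq⟩ := ht
  have h1 : q.bypass = p := path_unique' hT q.bypass_isPath hp
  intro a b hab
  rw [← h1] at hab
  exact hq a b (q.edges_bypass_subset_edges hab)

/-- adjacent nodes of the region are joined by a free edge -/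
theorem reg_adj {T : SimpleGraph ι} (hT : T.IsTree) {B : ι → Finset V} {r a b : ι}
    (ha : a ∈ Reg T B r) (hb : b ∈ Reg T B r) (hab : T.Adj a b) : FreeEdge B a b := by
  classical
  obtain ⟨p, hp⟩ := ha
  obtain ⟨q, hq⟩ := hb
  have h1 : (p.reverse.append q).bypass = Walk.cons hab Walk.nil := by
    refine path_unique' hT (Walk.bypass_isPath _) ?_
    rw [Walk.cons_isPath_iff]
    refine ⟨Walk.IsPath.nil, ?_⟩
    rw [Walk.support_nil, List.mem_singleton]
    exact hab.ne
  have h2 : s(a, b) ∈ (p.reverse.append q).edges := by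
    apply Walk.edges_bypass_subset_edges
    rw [h1]
    simp
  rw [Walk.edges_append, Walk.edges_reverse, List.mem_append, List.mem_reverse] at h2
  rcases h2 with h2 | h2
  · exact hp a b h2
  · exact hq a b h2

/-! ### Gates -/

open Classical in
/-- the first vertex of a walk which lies in `R`, or else its end -/
noncomputable def first {T : SimpleGraph ι} (R : Set ι) : ∀ {a b : ι}, T.Walk a b → ι
  | a, _, .nil => a
  | a, _, .cons _ p => if a ∈ R then a else first R p

theorem first_mem {T : SimpleGraph ι} {R : Set ι} {a b : ι} (p : T.Walk a b) (hb : b ∈ R) :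
    first R p ∈ R := by
  induction p with
  | nil => exact hb
  | cons h p ih =>
    unfold first
    split_ifs with h1
    · exact h1
    · exact ih hb

theorem first_of_mem {T : SimpleGraph ι} {R : Set ι} {a b : ι} (p : T.Walk a b) (ha : a ∈ R) :
    first R p = a := by
  cases p with
  | nil => rfl
  | cons h p => exact if_pos ha

theorem first_cons {T : SimpleGraph ι} {R : Set ι} {a b c : ι} (h : T.Adj a c) (p : T.Walk c b)
    (ha : a ∉ R) : first R (Walk.cons h p) = first R p := if_neg ha

/-- the unique path -/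
noncomputable def thePath {T : SimpleGraph ι} (hT : T.IsTree) (a b : ι) : T.Walk a b :=
  (hT.existsUnique_path a b).choose

theorem thePath_isPath {T : SimpleGraph ι} (hT : T.IsTree) (a b : ι) :
    (thePath hT a b).IsPath := (hT.existsUnique_path a b).choose_spec.1

theorem thePath_step {T : SimpleGraph ι} (hT : T.IsTree) (r : ι) {a b : ι} (hab : T.Adj a b) :
    thePath hT a r = Walk.cons hab (thePath hT b r) ∨
      thePath hT b r = Walk.cons hab.symm (thePath hT a r) := by
  classical
  by_cases hb : b ∈ (thePath hT a r).support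
  · left
    have h1 : (thePath hT a r).takeUntil b hb = Walk.cons hab Walk.nil := by
      refine path_unique' hT ((thePath_isPath hT a r).takeUntil hb) ?_
      rw [Walk.cons_isPath_iff]
      refine ⟨Walk.IsPath.nil, ?_⟩
      rw [Walk.support_nil, List.mem_singleton]
      exact hab.ne
    have h2 : (thePath hT a r).dropUntil b hb = thePath hT b r :=
      path_unique' hT ((thePath_isPath hT a r).dropUntil hb) (thePath_isPath hT b r)
    have h3 := (thePath hT a r).take_spec hb
    rw [h1, h2, Walk.cons_append, Walk.nil_append] at h3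
    exact h3.symm
  · right
    refine path_unique' hT (thePath_isPath hT b r) ?_
    rw [Walk.cons_isPath_iff]
    exact ⟨thePath_isPath hT a r, hb⟩

/-- the gate of a node: the first node of the region on the path to the root -/
noncomputable def gate {T : SimpleGraph ι} (hT : T.IsTree) (B : ι → Finset V) (r t : ι) : ι :=
  first (Reg T B r) (thePath hT t r)

theorem gate_mem {T : SimpleGraph ι} (hT : T.IsTree) (B : ι → Finset V) (r t : ι) :
    gate hT B r t ∈ Reg T B r := first_mem _ (root_mem T B r)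

theorem gate_of_mem {T : SimpleGraph ι} (hT : T.IsTree) (B : ι → Finset V) (r : ι) {t : ι}
    (h : t ∈ Reg T B r) : gate hT B r t = t := first_of_mem _ h

theorem gate_step_aux {T : SimpleGraph ι} (hT : T.IsTree) (B : ι → Finset V) (r : ι) {a b : ι}
    (hab : T.Adj a b) (h : ¬ (a ∈ Reg T B r ∧ b ∈ Reg T B r))
    (hp : thePath hT a r = Walk.cons hab (thePath hT b r)) : gate hT B r a = gate hT B r b := by
  by_cases ha : a ∈ Reg T B r
  · exfalso
    refine h ⟨ha, reg_step ha hab ?_⟩
    have h1 := reg_path hT ha (thePath hT a r).reverse (thePath_isPath hT a r).reverse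
    refine h1 a b ?_
    rw [Walk.edges_reverse, List.mem_reverse, hp]
    simp
  · unfold gate
    rw [hp, first_cons _ _ ha]

theorem gate_step {T : SimpleGraph ι} (hT : T.IsTree) (B : ι → Finset V) (r : ι) {a b : ι}
    (hab : T.Adj a b) (h : ¬ (a ∈ Reg T B r ∧ b ∈ Reg T B r)) :
    gate hT B r a = gate hT B r b := by
  rcases thePath_step hT r hab with h1 | h1
  · exact gate_step_aux hT B r hab h h1
  · exact (gate_step_aux hT B r hab.symm (fun h' => h h'.symm) h1).symm

/-! ### Vertices of the region -/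

/-- the vertices in the bags of the region -/
def XX (T : SimpleGraph ι) (B : ι → Finset V) (r : ι) : Set V :=
  {v | ∃ t ∈ Reg T B r, v ∈ B t}

theorem mem_gate {T : SimpleGraph ι} (hT : T.IsTree) {B : ι → Finset V} (r : ι)
    (hI : ∀ v, (T.induce {t | v ∈ B t}).Preconnected) {x : V} (hx : x ∈ XX T B r) {t : ι}
    (ht : x ∈ B t) : x ∈ B (gate hT B r t) := by
  obtain ⟨t0, ht0, hxt0⟩ := hx
  obtain ⟨w⟩ := hI x ⟨t, ht⟩ ⟨t0, hxt0⟩
  have key : ∀ (a b : {t | x ∈ B t}) (w : (T.induce {t | x ∈ B t}).Walk a b),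
      b.1 ∈ Reg T B r → x ∈ B (gate hT B r a.1) := by
    intro a b w
    induction w with
    | @nil u =>
      intro h
      rw [gate_of_mem hT B r h]
      exact u.2
    | @cons u v w h p ih =>
      intro hb
      by_cases hu : u.1 ∈ Reg T B r
      · rw [gate_of_mem hT B r hu]
        exact u.2
      · have h1 : T.Adj u.1 v.1 := h
        rw [gate_step hT B r h1 fun h2 => hu h2.1]
        exact ih hb
  exact key ⟨t, ht⟩ ⟨t0, hxt0⟩ w ht0

/-- outside of `X` the gate depends on the vertex only -/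
theorem gate_vertex {T : SimpleGraph ι} (hT : T.IsTree) {B : ι → Finset V} (r : ι)
    (hI : ∀ v, (T.induce {t | v ∈ B t}).Preconnected) {v : V} (hv : v ∉ XX T B r) {s t : ι}
    (hs : v ∈ B s) (ht : v ∈ B t) : gate hT B r s = gate hT B r t := by
  obtain ⟨w⟩ := hI v ⟨s, hs⟩ ⟨t, ht⟩
  have key : ∀ (a b : {t | v ∈ B t}) (w : (T.induce {t | v ∈ B t}).Walk a b),
      gate hT B r a.1 = gate hT B r b.1 := by
    intro a b w
    induction w with
    | nil => rfl
    | @cons u v' w h p ih =>
      have h1 : T.Adj u.1 v'.1 := h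
      rw [← ih]
      refine gate_step hT B r h1 fun h2 => hv ⟨u.1, h2.1, u.2⟩
  exact key ⟨s, hs⟩ ⟨t, ht⟩ w

theorem gate_comp {G : SimpleGraph V} {T : SimpleGraph ι} (hT : T.IsTree) {B : ι → Finset V}
    (r : ι) (hE : ∀ u v, G.Adj u v → ∃ t, u ∈ B t ∧ v ∈ B t)
    (hI : ∀ v, (T.induce {t | v ∈ B t}).Preconnected) {u v : V} (p : G.Walk u v)
    (hp : ∀ a ∈ p.support, a ∉ XX T B r) {s t : ι} (hs : u ∈ B s) (ht : v ∈ B t) :
    gate hT B r s = gate hT B r t := by
  induction p generalizing s with
  | nil => exact gate_vertex hT r hI (hp _ (by simp)) hs ht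
  | @cons a b c h p ih =>
    obtain ⟨t1, h1, h2⟩ := hE _ _ h
    rw [gate_vertex hT r hI (hp a (by simp)) hs h1]
    exact ih (fun x hx => hp x (by rw [Walk.support_cons]; exact List.mem_cons_of_mem _ hx)) h2 ht

theorem attach_subset {G : SimpleGraph V} {T : SimpleGraph ι} (hT : T.IsTree) {B : ι → Finset V}
    (r : ι) (hV : ∀ v, ∃ t, v ∈ B t) (hE : ∀ u v, G.Adj u v → ∃ t, u ∈ B t ∧ v ∈ B t)
    (hI : ∀ v, (T.induce {t | v ∈ B t}).Preconnected) (u : V) :
    ∃ a ∈ Reg T B r, ∀ x ∈ attach G (XX T B r) u, x ∈ B a := by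
  obtain ⟨t0, ht0⟩ := hV u
  refine ⟨gate hT B r t0, gate_mem hT B r t0, ?_⟩
  rintro x ⟨hx, v, ⟨p, hp⟩, hvx⟩
  obtain ⟨t1, h1, h2⟩ := hE _ _ hvx
  rw [gate_comp hT r hE hI p hp ht0 h1]
  exact mem_gate hT r hI hx h2

/-! ### The torso and the components -/

theorem torso_zero {k : ℕ} {G : SimpleGraph V} [Finite ι] {T : SimpleGraph ι} (hT : T.IsTree)
    {B : ι → Finset V} (r : ι) (hV : ∀ v, ∃ t, v ∈ B t)
    (hE : ∀ u v, G.Adj u v → ∃ t, u ∈ B t ∧ v ∈ B t)
    (hI : ∀ v, (T.induce {t | v ∈ B t}).Preconnected) (hB : ∀ t, (B t).card ≤ k + 1) :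
    DepthTD k 0 (torso G (XX T B r)) := by
  classical
  let B' : ι → Finset (XX T B r) := fun t =>
    if t ∈ Reg T B r then (B t).subtype (fun v => v ∈ XX T B r) else ∅
  have hB' : ∀ t (x : XX T B r), x ∈ B' t ↔ t ∈ Reg T B r ∧ x.1 ∈ B t := by
    intro t x
    simp only [B']
    split_ifs with h
    · simp [h]
    · simp [h]
  refine ⟨ι, inferInstance, T, B', r, hT, ?_, ?_, ?_, ?_, ?_⟩
  · rintro ⟨v, t, ht, hv⟩
    exact ⟨t, (hB' _ _).mpr ⟨ht, hv⟩⟩
  · rintro x y ⟨_, hxy⟩
    rcases hxy with hxy | ⟨u, hx, hy⟩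
    · obtain ⟨t, h1, h2⟩ := hE _ _ hxy
      exact ⟨gate hT B r t, (hB' _ _).mpr ⟨gate_mem hT B r t, mem_gate hT r hI x.2 h1⟩,
        (hB' _ _).mpr ⟨gate_mem hT B r t, mem_gate hT r hI y.2 h2⟩⟩
    · obtain ⟨a, ha, h⟩ := attach_subset hT r hV hE hI u
      exact ⟨a, (hB' _ _).mpr ⟨ha, h _ hx⟩, (hB' _ _).mpr ⟨ha, h _ hy⟩⟩
  · intro x
    have key : ∀ (a b : {t | x.1 ∈ B t}) (w : (T.induce {t | x.1 ∈ B t}).Walk a b)
        (ha : x ∈ B' (gate hT B r a.1)) (hb : x ∈ B' (gate hT B r b.1)),
        (T.induce {t | x ∈ B' t}).Reachable ⟨gate hT B r a.1, ha⟩ ⟨gate hT B r b.1, hb⟩ := by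
      intro a b w
      induction w with
      | nil => intro _ _; exact Reachable.refl _
      | @cons u v w h p ih =>
        intro ha hb
        have hv : x ∈ B' (gate hT B r v.1) :=
          (hB' _ _).mpr ⟨gate_mem hT B r v.1, mem_gate hT r hI x.2 v.2⟩
        refine Reachable.trans ?_ (ih hv hb)
        have h1 : T.Adj u.1 v.1 := h
        by_cases h2 : u.1 ∈ Reg T B r ∧ v.1 ∈ Reg T B r
        · have h3 : (T.induce {t | x ∈ B' t}).Adj ⟨gate hT B r u.1, ha⟩ ⟨gate hT B r v.1, hv⟩ := by
            show T.Adj (gate hT B r u.1) (gate hT B r v.1)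
            rw [gate_of_mem hT B r h2.1, gate_of_mem hT B r h2.2]
            exact h1
          exact h3.reachable
        · have h3 : (⟨gate hT B r u.1, ha⟩ : {t | x ∈ B' t}) = ⟨gate hT B r v.1, hv⟩ :=
            Subtype.ext (gate_step hT B r h1 h2)
          rw [h3]
    rintro ⟨a, ha⟩ ⟨b, hb⟩
    have ha' := (hB' _ _).mp ha
    have hb' := (hB' _ _).mp hb
    obtain ⟨w⟩ := hI x.1 ⟨a, ha'.2⟩ ⟨b, hb'.2⟩
    have h1 := gate_of_mem hT B r ha'.1
    have h2 := gate_of_mem hT B r hb'.1
    have h3 := key _ _ w (by rw [h1]; exact ha) (by rw [h2]; exact hb)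
    have e1 : (⟨gate hT B r a, by rw [h1]; exact ha⟩ : {t | x ∈ B' t}) = ⟨a, ha⟩ :=
      Subtype.ext h1
    have e2 : (⟨gate hT B r b, by rw [h2]; exact hb⟩ : {t | x ∈ B' t}) = ⟨b, hb⟩ :=
      Subtype.ext h2
    rw [← e1, ← e2]
    exact h3
  · intro t
    refine le_trans ?_ (hB t)
    refine Finset.card_le_card_of_injOn Subtype.val (fun x hx => ?_) Subtype.val_injective.injOn
    exact ((hB' _ _).mp hx).2
  · intro t p _
    refine ⟨∅, le_refl _, fun a b hab => Or.inl ?_⟩
    have hadj : T.Adj a b := p.adj_of_mem_edges hab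
    by_cases h : a ∈ Reg T B r ∧ b ∈ Reg T B r
    · exact freeEdge_mono (B := B) Subtype.val Subtype.val_injective
        (fun t w hw => ((hB' _ _).mp hw).2) (reg_adj hT h.1 h.2 hadj)
    · refine freeEdge_of_empty ?_
      by_cases ha : a ∈ Reg T B r
      · right
        have hb : b ∉ Reg T B r := fun hb => h ⟨ha, hb⟩
        simp only [B']
        rw [if_neg hb]
      · left
        simp only [B']
        rw [if_neg ha]

theorem comp_depth {k j : ℕ} {G : SimpleGraph V} [Finite ι] {T : SimpleGraph ι} (hT : T.IsTree)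
    {B : ι → Finset V} (r : ι) (hV : ∀ v, ∃ t, v ∈ B t)
    (hE : ∀ u v, G.Adj u v → ∃ t, u ∈ B t ∧ v ∈ B t)
    (hI : ∀ v, (T.induce {t | v ∈ B t}).Preconnected) (hB : ∀ t, (B t).card ≤ k + 1)
    (hD : ∀ (t : ι) (p : T.Walk r t), p.IsPath →
      ∃ S : Finset (Sym2 ι), S.card ≤ j + 1 ∧
        ∀ a b, s(a, b) ∈ p.edges → FreeEdge B a b ∨ s(a, b) ∈ S)
    (K : Set V) (hK : ∀ v ∈ K, v ∉ XX T B r) :
    DepthTD k j (G.induce K) := by
  classical
  let B' : ι → Finset K := fun t => (B t).subtype (fun v => v ∈ K)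
  have hB' : ∀ t (x : K), x ∈ B' t ↔ x.1 ∈ B t := by
    intro t x
    simp [B']
  have hemp : ∀ t ∈ Reg T B r, B' t = ∅ := by
    intro t ht
    rw [Finset.eq_empty_iff_forall_notMem]
    intro x hx
    exact hK x.1 x.2 ⟨t, ht, (hB' _ _).mp hx⟩
  have hmono : ∀ a b, FreeEdge B a b → FreeEdge B' a b := fun a b h =>
    freeEdge_mono (B := B) Subtype.val Subtype.val_injective
      (fun t w hw => (hB' _ _).mp hw) h
  refine ⟨ι, inferInstance, T, B', r, hT, ?_, ?_, ?_, ?_, ?_⟩
  · intro v
    obtain ⟨t, ht⟩ := hV v.1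
    exact ⟨t, (hB' _ _).mpr ht⟩
  · intro u v huv
    have h1 : G.Adj u.1 v.1 := huv
    obtain ⟨t, h2, h3⟩ := hE _ _ h1
    exact ⟨t, (hB' _ _).mpr h2, (hB' _ _).mpr h3⟩
  · intro v
    have h1 : {t | v ∈ B' t} = {t | v.1 ∈ B t} := by
      ext t
      exact hB' t v
    rw [h1]
    exact hI v.1
  · intro t
    refine le_trans ?_ (hB t)
    refine Finset.card_le_card_of_injOn Subtype.val (fun x hx => ?_) Subtype.val_injective.injOn
    exact (hB' _ _).mp hx
  · intro t p hp
    by_cases ht : t ∈ Reg T B r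
    · exact ⟨∅, by simp, fun a b hab => Or.inl (hmono a b (reg_path hT ht p hp a b hab))⟩
    · obtain ⟨S, hS, hSp⟩ := hD t p hp
      obtain ⟨d, hd, h1, h2⟩ := p.exists_boundary_dart (Reg T B r) (root_mem T B r) ht
      have h3 : ¬ FreeEdge B d.fst d.snd := fun h => h2 (reg_step h1 d.adj h)
      have h4 : s(d.fst, d.snd) ∈ p.edges := by
        rw [Walk.edges, List.mem_map]
        exact ⟨d, hd, rfl⟩
      have h5 : s(d.fst, d.snd) ∈ S := (hSp _ _ h4).resolve_left h3
      refine ⟨S.erase s(d.fst, d.snd), ?_, fun a b hab => ?_⟩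
      · rw [Finset.card_erase_of_mem h5]
        omega
      · rcases hSp a b hab with h | h
        · exact Or.inl (hmono a b h)
        · by_cases h6 : s(a, b) = s(d.fst, d.snd)
          · left
            rw [Sym2.eq_iff] at h6
            rcases h6 with ⟨h6, _⟩ | ⟨_, h6⟩
            · exact freeEdge_of_empty (Or.inl (hemp a (h6 ▸ h1)))
            · exact freeEdge_of_empty (Or.inr (hemp b (h6 ▸ h1)))
          · exact Or.inr (Finset.mem_erase.mpr ⟨h6, h⟩)

theorem comp_connected' {G : SimpleGraph V} {X : Set V} {u : V} (hu : u ∉ X) :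
    (G.induce (compSet G X u)).Connected := by
  have hself : ReachOff G X u u := ⟨Walk.nil, by simpa using hu⟩
  have key : ∀ (a v : V) (p : G.Walk a v), (∀ b ∈ p.support, b ∉ X) →
      ∀ (ha : ReachOff G X u a) (hv : ReachOff G X u v),
      (G.induce (compSet G X u)).Reachable ⟨a, ha⟩ ⟨v, hv⟩ := by
    intro a v p
    induction p with
    | nil => intro _ _ _; exact Reachable.refl _
    | @cons a b v h p ih =>
      intro hp ha hv
      rw [Walk.support_cons] at hp
      have hb : b ∉ X := hp b (List.mem_cons_of_mem _ p.start_mem_support)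
      have hab : ReachOff G X u b := by
        obtain ⟨q, hq⟩ := ha
        refine ⟨q.concat h, fun c hc => ?_⟩
        rw [Walk.support_concat, List.mem_append, List.mem_singleton] at hc
        rcases hc with hc | hc
        · exact hq c hc
        · rw [hc]
          exact hb
      have h1 : (G.induce (compSet G X u)).Adj ⟨a, ha⟩ ⟨b, hab⟩ := h
      exact h1.reachable.trans (ih (fun c hc => hp c (List.mem_cons_of_mem _ hc)) hab hv)
  have key2 : ∀ (v : V) (hv : ReachOff G X u v),
      (G.induce (compSet G X u)).Reachable ⟨u, hself⟩ ⟨v, hv⟩ := by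
    intro v hv
    obtain ⟨p, hp⟩ := id hv
    exact key u v p hp hself hv
  rw [connected_iff]
  refine ⟨?_, ⟨⟨u, hself⟩⟩⟩
  rintro ⟨a, ha⟩ ⟨v, hv⟩
  exact (key2 a ha).symm.trans (key2 v hv)

theorem builtOver_lift {P : ∀ (V : Type), SimpleGraph V → Prop} {w : ℕ} {V : Type}
    {G : SimpleGraph V} (h : BuiltOver P w 0 G) (j : ℕ) : BuiltOver P w j G := by
  induction j with
  | zero => exact h
  | succ j ih => exact ih.lift

/-- the region is not hollow -/
theorem XX_nonempty [Nonempty V] {T : SimpleGraph ι} (hT : T.IsTree) {B : ι → Finset V} (r : ι)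
    (hV : ∀ v, ∃ t, v ∈ B t) : (XX T B r).Nonempty := by
  by_contra hX
  rw [Set.not_nonempty_iff_eq_empty] at hX
  have hemp : ∀ t ∈ Reg T B r, B t = ∅ := by
    intro t ht
    rw [Finset.eq_empty_iff_forall_notMem]
    intro x hx
    have : x ∈ XX T B r := ⟨t, ht, hx⟩
    rw [hX] at this
    exact this
  obtain ⟨v⟩ := ‹Nonempty V›
  obtain ⟨t, ht⟩ := hV v
  have htR : t ∉ Reg T B r := fun h => by
    rw [hemp t h] at ht
    simp at ht
  obtain ⟨d, _, h1, h2⟩ := (thePath hT r t).exists_boundary_dart (Reg T B r) (root_mem T B r) htR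
  exact h2 (reg_step h1 d.adj (freeEdge_of_empty (Or.inl (hemp _ h1))))

end Vale.Agent.P235.H515

namespace Vale.Agent.P235

open SimpleGraph Vale.Agent.P235.H515

/-- A connected graph with a rooted tree decomposition of width at most `k`, in which at most `j`
edges of every root path are not free, is built in `j` rounds from graphs which have a tree
decomposition of width at most `k` with free edges only. -/
theorem depth_builtOver (k j : ℕ) {V : Type} [Finite V] (G : SimpleGraph V) (hG : G.Connected)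
    (h : DepthTD k j G) : BuiltOver (fun _ G => DepthTD k 0 G) (k + 1) j G := by
  induction j generalizing V with
  | zero => exact .base h
  | succ j ih =>
    obtain ⟨ι, hι, T, B, r, hT, hV, hE, hI, hB, hD⟩ := h
    have hne := hG.nonempty
    refine BuiltOver.compose (X := XX T B r) (XX_nonempty hT r hV) ?_ ?_ ?_
    · intro u _
      obtain ⟨a, _, ha⟩ := attach_subset hT r hV hE hI u
      have h1 : attach G (XX T B r) u ⊆ (B a : Set V) := fun x hx => ha x hx
      refine (Set.ncard_le_ncard h1 (B a).finite_toSet).trans ?_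
      rw [Set.ncard_coe_finset]
      exact hB a
    · exact builtOver_lift (.base (torso_zero hT r hV hE hI hB)) j
    · intro u hu
      refine ih (G.induce (compSet G (XX T B r) u)) (comp_connected' hu) ?_
      refine comp_depth hT r hV hE hI hB hD _ ?_
      rintro v ⟨p, hp⟩
      exact hp v p.end_mem_support

end Vale.Agent.P235
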